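import Vale.Agent.P130.H980.Final
import Vale.Agent.Results.P130.RankOne

/-!
# P130: simple Lebesgue spectrum, and Lebesgue spectrum of every multiplicity from one transformation
-/

namespace Vale.Agent.Results.P130.AllMultiplicities

open MeasureTheory Vale.Agent.P130.H980

/-- **Banach's problem, all multiplicities.** There is one invertible measure preserving
transformation `T` of a standard nonatomic probability space which has simple Lebesgue spectrum
(basis form and operator form), rank one, and a real-valued basis function; for every `k ≥ 1` the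
power `T ^ k` is strongly mixing with Lebesgue spectrum of multiplicity exactly `k`, and the
square `T × T` is strongly mixing with Lebesgue spectrum of multiplicity exactly `∞`. -/
theorem result : ∃ (X : Type) (_ : MeasurableSpace X) (_ : StandardBorelSpace X) (μ : Measure X)
    (_ : IsProbabilityMeasure μ) (T : X ≃ᵐ X), (∀ x, μ {x} = 0) ∧ MeasurePreserving T μ μ ∧
    SimpleLebesgueSpectrum μ T ∧ EquivMulW μ T ∧ IsRankOneMap μ T ∧ IsStronglyMixing μ T ∧
    (∃ f : X → ℝ, IsRealOrbitBasis μ T f) ∧
    (∀ k : ℕ, 1 ≤ k → MixingOfMultiplicity μ (iter T k) k) ∧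
    MixingOfMultiplicity (μ.prod μ) (T.prodCongr T) ⊤ := by
  obtain ⟨X, i1, i2, μ, i3, T, h1, h2, h3, h4⟩ := Vale.Agent.Results.P130.RankOne.result
  have hs : SimpleLebesgueSpectrum μ T := h3
  have hr : IsRankOneMap μ T := h4
  obtain ⟨f, hf⟩ := orbit_of_simple hs
  exact ⟨X, i1, i2, μ, i3, T, h1, h2, hs, equiv_of h2 hs, hr, mix_of h2 hf, real_of h2 hs,
    fun k hk => powers_of h2 hs hk, square_of h2 hs⟩

end Vale.Agent.Results.P130.AllMultiplicities
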