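import Vale.Agent.P130.H454.Defs
import Vale.Agent.P130.H454.Base

/-!
# P130: simple Lebesgue spectrum on the unit interval, and density in the automorphism group
-/

namespace Vale.Agent.Results.P130.DenseInAut

open MeasureTheory Vale.Agent.P130.H454

/-- **Banach's problem on the unit interval, and density.**
(1) Some invertible transformation of the unit interval which preserves the Lebesgue measure has
simple Lebesgue spectrum (the unitary equivalence and the orthonormal basis `f ∘ T ^ n`).
(2) Every standard nonatomic probability space `(X, μ)` carries a strongly mixing transformation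
`T` with simple Lebesgue spectrum such that the conjugates of `T` are dense in the group
`Aut (X, μ)` of all invertible `μ`-preserving transformations with its weak topology; a conjugate of
`T` preserves `μ`, is strongly mixing and has simple Lebesgue spectrum. -/
theorem result :
    (∃ T : unitInterval ≃ᵐ unitInterval, MeasurePreserving T volume volume ∧
      SimpleLebesgueSpectrum volume T ∧ ∃ f, IsOrbitBasis volume T f) ∧
    ∀ (X : Type*) [MeasurableSpace X] [StandardBorelSpace X] (μ : Measure X)
      [IsProbabilityMeasure μ], (∀ x, μ {x} = 0) →
      ∃ T : X ≃ᵐ X, MeasurePreserving T μ μ ∧ SimpleLebesgueSpectrum μ T ∧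
        (∃ f, IsOrbitBasis μ T f) ∧ StronglyMixing μ T ∧ ConjugatesDense μ T ∧
        ∀ φ : X ≃ᵐ X, MeasurePreserving φ μ μ → ∀ R : X ≃ᵐ X, R = φ.symm.trans (T.trans φ) →
          MeasurePreserving R μ μ ∧ SimpleLebesgueSpectrum μ R ∧ StronglyMixing μ R := by
  refine ⟨?_, ?_⟩
  · obtain ⟨T, h1, h2, h3, -⟩ := every (volume : Measure unitInterval) measure_singleton
    exact ⟨T, h1, h2, h3⟩
  · intro X _ _ μ _ hμ
    exact every μ hμ

end Vale.Agent.Results.P130.DenseInAut
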